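import Mathlib

open MeasureTheory ProbabilityTheory

namespace Vale.Agent.Lib.P226.H73

/-- Integrability of `<q,z>^2 / |q|` for the standard Gaussian. -/
theorem integrable_inner_sq_div_norm (n : ℕ) (z : EuclideanSpace ℝ (Fin (n + 1))) :
    Integrable (fun q : EuclideanSpace ℝ (Fin (n + 1)) => inner ℝ q z ^ 2 / ‖q‖)
      (stdGaussian (EuclideanSpace ℝ (Fin (n + 1)))) := by
  have hnorm : Integrable (fun q : EuclideanSpace ℝ (Fin (n + 1)) => ‖z‖ ^ 2 * ‖q‖)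
      (stdGaussian (EuclideanSpace ℝ (Fin (n + 1)))) :=
    ((IsGaussian.integrable_id
      (μ := stdGaussian (EuclideanSpace ℝ (Fin (n + 1))))).norm).const_mul _
  refine Integrable.mono' hnorm ?_ ?_
  · apply Measurable.aestronglyMeasurable
    fun_prop
  · refine Filter.Eventually.of_forall (fun q => ?_)
    rw [Real.norm_eq_abs, abs_div, abs_pow, abs_norm]
    by_cases hq : q = 0
    · subst hq
      simp
    · have hq' : 0 < ‖q‖ := norm_pos_iff.mpr hq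
      rw [div_le_iff₀ hq']
      have h1 := abs_real_inner_le_norm q z
      have h2 : |inner ℝ q z| ^ 2 ≤ (‖q‖ * ‖z‖) ^ 2 :=
        pow_le_pow_left₀ (abs_nonneg _) h1 2
      calc |inner ℝ q z| ^ 2 ≤ (‖q‖ * ‖z‖) ^ 2 := h2
        _ = ‖z‖ ^ 2 * ‖q‖ * ‖q‖ := by ring

/-- Invariance under linear isometry equivalences. -/
theorem integral_inner_sq_div_norm_map (n : ℕ)
    (U : EuclideanSpace ℝ (Fin (n + 1)) ≃ₗᵢ[ℝ] EuclideanSpace ℝ (Fin (n + 1)))
    (z : EuclideanSpace ℝ (Fin (n + 1))) :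
    ∫ q, inner ℝ q (U z) ^ 2 / ‖q‖ ∂(stdGaussian (EuclideanSpace ℝ (Fin (n + 1))))
      = ∫ q, inner ℝ q z ^ 2 / ‖q‖ ∂(stdGaussian (EuclideanSpace ℝ (Fin (n + 1)))) := by
  have h := stdGaussian_map U
  have h2 : Measure.map (⇑U.toHomeomorph.toMeasurableEquiv)
      (stdGaussian (EuclideanSpace ℝ (Fin (n + 1))))
      = stdGaussian (EuclideanSpace ℝ (Fin (n + 1))) := h
  conv_lhs => rw [← h2]
  rw [integral_map_equiv]
  refine integral_congr_ae (Filter.Eventually.of_forall (fun q => ?_))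
  show inner ℝ (U q) (U z) ^ 2 / ‖U q‖ = inner ℝ q z ^ 2 / ‖q‖
  rw [U.inner_map_map, U.norm_map]

/-- Equal norms give equal integrals. -/
theorem integral_inner_sq_div_norm_congr (n : ℕ) (z z' : EuclideanSpace ℝ (Fin (n + 1)))
    (h : ‖z‖ = ‖z'‖) :
    ∫ q, inner ℝ q z' ^ 2 / ‖q‖ ∂(stdGaussian (EuclideanSpace ℝ (Fin (n + 1))))
      = ∫ q, inner ℝ q z ^ 2 / ‖q‖ ∂(stdGaussian (EuclideanSpace ℝ (Fin (n + 1)))) := by
  have hU := Submodule.reflection_sub h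
  rw [← integral_inner_sq_div_norm_map n ((ℝ ∙ (z - z'))ᗮ.reflection) z, hU]

/-- Homogeneity of degree two. -/
theorem integral_inner_sq_div_norm_smul (n : ℕ) (t : ℝ) (z : EuclideanSpace ℝ (Fin (n + 1))) :
    ∫ q, inner ℝ q (t • z) ^ 2 / ‖q‖ ∂(stdGaussian (EuclideanSpace ℝ (Fin (n + 1))))
      = t ^ 2 * ∫ q, inner ℝ q z ^ 2 / ‖q‖ ∂(stdGaussian (EuclideanSpace ℝ (Fin (n + 1)))) := by
  rw [← integral_const_mul]
  refine integral_congr_ae (Filter.Eventually.of_forall (fun q => ?_))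
  show inner ℝ q (t • z) ^ 2 / ‖q‖ = t ^ 2 * (inner ℝ q z ^ 2 / ‖q‖)
  rw [real_inner_smul_right]
  ring

/-- The sum over the coordinate directions. -/
theorem sum_integral_single (n : ℕ) :
    ∑ j : Fin (n + 1), ∫ q, inner ℝ q (EuclideanSpace.single j (1 : ℝ)) ^ 2 / ‖q‖
        ∂(stdGaussian (EuclideanSpace ℝ (Fin (n + 1))))
      = ∫ q, ‖q‖ ∂(stdGaussian (EuclideanSpace ℝ (Fin (n + 1)))) := by
  rw [← integral_finsetSum _ (fun j _ => integrable_inner_sq_div_norm n _)]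
  refine integral_congr_ae (Filter.Eventually.of_forall (fun q => ?_))
  show ∑ j : Fin (n + 1), inner ℝ q (EuclideanSpace.single j (1 : ℝ)) ^ 2 / ‖q‖ = ‖q‖
  rw [← Finset.sum_div]
  have h1 : ∑ j : Fin (n + 1), inner ℝ q (EuclideanSpace.single j (1 : ℝ)) ^ 2 = ‖q‖ ^ 2 := by
    rw [EuclideanSpace.real_norm_sq_eq]
    refine Finset.sum_congr rfl (fun j _ => ?_)
    rw [EuclideanSpace.inner_single_right]
    simp
  rw [h1]
  by_cases hq : ‖q‖ = 0
  · rw [hq]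
    simp
  · field_simp

theorem integral_inner_sq_div_norm (n : ℕ) (z : EuclideanSpace ℝ (Fin (n + 1))) :
    ∫ q, inner ℝ q z ^ 2 / ‖q‖ ∂(stdGaussian (EuclideanSpace ℝ (Fin (n + 1))))
      = ‖z‖ ^ 2 / (n + 1) * ∫ q, ‖q‖ ∂(stdGaussian (EuclideanSpace ℝ (Fin (n + 1)))) := by
  have hsum := sum_integral_single n
  have hall : ∀ j : Fin (n + 1),
      ∫ q, inner ℝ q (EuclideanSpace.single j (1 : ℝ)) ^ 2 / ‖q‖
        ∂(stdGaussian (EuclideanSpace ℝ (Fin (n + 1))))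
      = ∫ q, inner ℝ q (EuclideanSpace.single (0 : Fin (n + 1)) (1 : ℝ)) ^ 2 / ‖q‖
        ∂(stdGaussian (EuclideanSpace ℝ (Fin (n + 1)))) := by
    intro j
    apply integral_inner_sq_div_norm_congr
    simp
  rw [Finset.sum_congr rfl (fun j _ => hall j), Finset.sum_const, Finset.card_univ,
    Fintype.card_fin, nsmul_eq_mul] at hsum
  have hz : ‖z‖ = ‖‖z‖ • EuclideanSpace.single (0 : Fin (n + 1)) (1 : ℝ)‖ := by
    rw [norm_smul]
    simp
  rw [integral_inner_sq_div_norm_congr n _ _ hz.symm, integral_inner_sq_div_norm_smul,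
    ← hsum]
  have hn : ((n + 1 : ℕ) : ℝ) ≠ 0 := by positivity
  push_cast at hn ⊢
  field_simp

end Vale.Agent.Lib.P226.H73
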